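import Vale.Agent.P181.TS.H798.Des
import Vale.Agent.P181.TS.H187.TestS
import Vale.Agent.P181.TS.H187.Ord1
import Vale.Agent.P181.TS.H187.Ord2
import Vale.Agent.P181.TS.H187.Ord3
import Vale.Agent.P181.TS.H352.Mat
import Vale.Agent.P181.TS.H694.Sz
import Vale.Agent.P181.TS.H283.Sys
import Vale.Agent.P181.TS.H923.AccSt
import Vale.Agent.P181.TS.H696.Free
import Vale.Agent.P181.TS.H963.Lbx
import Vale.Agent.P181.TS.H415.DCol
import Vale.Agent.P181.TS.H547.UAll
import Vale.Agent.P181.TS.H870.Iv
import Vale.Agent.P181.H59.Des6All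
import Vale.Agent.P181.H261.MatG

/-!
# P181, TS: assembly
-/

set_option autoImplicit false

namespace Vale.Agent.P181.TS

open Vale.Agent.P181

theorem matT : MatT := H352.matTStep H187.ord1 H187.ord2 H187.ord3

theorem sys : SysStmt := H283.sysStmt H187.testStmt

theorem desShort : DesShort :=
  H798.desShort H694.sz sys H415.dCol H547.uStmt_holds H923.accStmt H696.free

/-- **the lower bound for columns of polylogarithmic length** -/
theorem lbx : LBX :=
  H963.lbxStep H59.Des6All.des_all H261.mat_g desShort matT

/-- `plethMult a b n lam ≤ plethMult b a n lam` for `b ≥ (1 + δ) a` and a long tail -/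
theorem tailF : H870.TailF := H870.tailF lbx

end Vale.Agent.P181.TS
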