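import Vale.Agent.P181.TS.Spec

/-!
# P181, TS: the design with codes, combinatorial assembly
-/

set_option autoImplicit false

namespace Vale.Agent.P181.TS.H798

open Finset Vale.Agent.P181 Vale.Agent.P181.H59 Vale.Agent.P181.TS

theorem miss_anti {b R : ℕ} (cl : Fin b → Fin R) {A B : Finset (Fin b)} (h : A ⊆ B) :
    miss cl B ⊆ miss cl A := by
  intro i hi
  unfold miss at *
  rw [mem_filter] at *
  exact ⟨mem_univ _, fun u hu => hi.2 u (h hu)⟩

theorem miss_image {b R : ℕ} (cl : Fin b → Fin R) (ρ : Equiv.Perm (Fin b))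
    (hρ : ∀ u, cl (ρ u) = cl u) (A : Finset (Fin b)) : miss cl (A.image ρ) = miss cl A := by
  ext i
  unfold miss
  simp only [mem_filter, mem_univ, true_and, mem_image]
  constructor
  · intro h u hu
    rw [← hρ u]
    exact h (ρ u) ⟨u, hu, rfl⟩
  · rintro h _ ⟨u, hu, rfl⟩
    rw [hρ u]
    exact h u hu

theorem inBlk_image {b R : ℕ} (r : ℕ) (cl : Fin b → Fin R) (ρ : Equiv.Perm (Fin b))
    (hρ : ∀ u, cl (ρ u) = cl u) (A : Finset (Fin b)) (β : ℕ) :
    (inBlk r cl (A.image ρ) β).card = (inBlk r cl A β).card := by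
  have h : inBlk r cl (A.image ρ) β = (inBlk r cl A β).image ρ := by
    ext v
    unfold inBlk
    simp only [mem_filter, mem_image]
    constructor
    · rintro ⟨⟨u, hu, rfl⟩, h2⟩
      rw [hρ u] at h2
      exact ⟨u, ⟨hu, h2⟩, rfl⟩
    · rintro ⟨u, ⟨hu, h2⟩, rfl⟩
      refine ⟨⟨u, hu, rfl⟩, ?_⟩
      rw [hρ u]
      exact h2
  rw [h, card_image_of_injective _ ρ.injective]

/-- The combinatorial assembly. -/
theorem core (hF : FillStmt) (hAcc : AccStmt) {b r h N ND NU e C z dD dU dG τ z0 e' : ℕ}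
    (cl : Fin b → Fin (2 * h * r)) (y : Fin b → Fin (2 * h * r) → Bool)
    (T : Finset (Tst b (2 * h * r))) (hT : TSys r τ z0 cl y T) (hb : 0 < b) (hr : 0 < r)
    (hR : 0 < 2 * h * r) (he : 1000 * (2 * h * r) ≤ e) (hC : 1 ≤ C)
    (hsz : ∀ i, e ≤ (cls cl i).card ∧ (cls cl i).card ≤ e + 2 * h * r)
    (hst : ∀ i j : Fin (2 * h * r), i < j → (cls cl i).card < (cls cl j).card)
    (hN : ND + NU ≤ N) (len : Fin N → ℕ)
    (B : Fin ND → Finset (Fin b)) (hBc : ∀ d : Fin ND, (B d).card = len ⟨d, by omega⟩)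
    (hBr : ∀ d, Reg r cl y (B d))
    (hBt : ∀ t ∈ T, ∃ d, t.2.2.1 ∈ B d ∧ t.2.2.2 ∈ B d ∧
      (inBlk r cl (B d) ((t.1 : ℕ) / r)).card = r ∧
      ∀ k ∈ miss cl (B d), (k : ℕ) / r = (t.1 : ℕ) / r → k = t.2.1)
    (hBd : ∀ u, dgr B u ≤ dD) (hBz : ∀ k, (univ.filter fun d => k ∈ miss cl (B d)).card ≤ z)
    (A1 : Fin NU → Finset (Fin b)) (hAc : ∀ c : Fin NU, (A1 c).card = len ⟨ND + c, by omega⟩)
    (hAm : ∀ c, miss cl (A1 c) = ∅) (hAd : ∀ p, dgr A1 p ≤ dU)
    (hA : ∀ (T : Finset (Fin b)) (i : Fin (2 * h * r)), T.card ≤ e + 2 * h * r →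
      (∀ j, (T ∩ cls cl j).card ≤ (T ∩ cls cl i).card) →
      (T \ cls cl i).card ≤ 2 * (cls cl i \ T).card →
      NU * (cls cl i \ T).card ≤ C * e * (univ.filter fun c => Disjoint (A1 c) T).card)
    (hz : 2 * C * z + 4 * C * e * dD < NU)
    (G : Fin N → Finset (Fin b)) (hGc : ∀ c, (G c).card = 2 * h * r)
    (hGm : ∀ c, miss cl (G c) = ∅) (hGd : ∀ p, dgr G p ≤ dG)
    (hlen : ∀ c, 2 * h * r ≤ len c) (hle : ∀ c, len c + e' ≤ b)
    (hnum : b * (dD + dU + dG + 1) + e' * (dD + dU + dG) < e' * ((∑ c, len c) / b + 1)) :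
    TDes b N len := by
  classical
  refine ⟨r, 2 * h, cl, y, hr, hlen, fun gd hgd hsum => ?_⟩
  obtain ⟨K, hK⟩ : ∃ K : Fin N → Finset (Fin b), K =
    fun c : Fin N => if hc : (c : ℕ) < ND then B ⟨(c : ℕ), hc⟩ else
      if hc2 : (c : ℕ) < ND + NU then A1 ⟨(c : ℕ) - ND, by omega⟩ else G c := ⟨_, rfl⟩
  set κ : ℕ := (∑ c, len c) / b with hκ
  have hKD : ∀ d : Fin ND, K ⟨d, by omega⟩ = B d := by
    intro d
    rw [hK]
    simp
  have hKU : ∀ c : Fin NU, K ⟨ND + c, by omega⟩ = A1 c := by
    intro c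
    rw [hK]
    simp
  have hKlen : ∀ c, (K c).card ≤ len c := by
    intro c
    rw [hK]
    simp only
    split_ifs with hc hc2
    · rw [hBc]
    · rw [hAc]
      apply le_of_eq
      congr 1
      ext
      simp only
      omega
    · rw [hGc c]
      exact hlen c
  have hKd : ∀ p, dgr K p ≤ dD + dU + dG := by
    intro p
    have e1 : (univ.filter fun c => p ∈ K c) ⊆
        ((univ.filter fun c => p ∈ B c).image (fun d : Fin ND => (⟨d, by omega⟩ : Fin N))) ∪
        ((univ.filter fun c => p ∈ A1 c).image (fun d : Fin NU => (⟨ND + d, by omega⟩ : Fin N))) ∪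
          (univ.filter fun c => p ∈ G c) := by
      intro c hc
      rw [mem_filter] at hc
      rw [mem_union, mem_union, mem_image, mem_image]
      have hc' := hc.2
      rw [hK] at hc'
      simp only at hc'
      split_ifs at hc' with hc1 hc2
      · left
        left
        exact ⟨⟨c, hc1⟩, by rw [mem_filter]; exact ⟨mem_univ _, hc'⟩, rfl⟩
      · left
        right
        refine ⟨⟨c - ND, by omega⟩, by rw [mem_filter]; exact ⟨mem_univ _, hc'⟩, ?_⟩
        ext
        simp only
        omega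
      · right
        rw [mem_filter]
        exact ⟨mem_univ _, hc'⟩
    have h3 := hBd p
    have h4 := hAd p
    have h5 := hGd p
    unfold dgr at h3 h4 h5 ⊢
    have h6 := card_le_card e1
    have h7 := card_union_le (((univ.filter fun c => p ∈ B c).image
      (fun d : Fin ND => (⟨d, by omega⟩ : Fin N))) ∪
        ((univ.filter fun c => p ∈ A1 c).image
          (fun d : Fin NU => (⟨ND + d, by omega⟩ : Fin N)))) (univ.filter fun c => p ∈ G c)
    have h8 := card_union_le ((univ.filter fun c => p ∈ B c).image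
      (fun d : Fin ND => (⟨d, by omega⟩ : Fin N)))
        ((univ.filter fun c => p ∈ A1 c).image
          (fun d : Fin NU => (⟨ND + d, by omega⟩ : Fin N)))
    have h9 : ((univ.filter fun c => p ∈ B c).image
      (fun d : Fin ND => (⟨d, by omega⟩ : Fin N))).card ≤ _ := card_image_le
    have h10 : ((univ.filter fun c => p ∈ A1 c).image
          (fun d : Fin NU => (⟨ND + d, by omega⟩ : Fin N))).card ≤ _ := card_image_le
    omega
  have hlt : ∑ c, len c < b * (κ + 1) := by
    rw [hκ]
    exact Nat.lt_mul_div_succ _ hb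
  have hge : b * κ ≤ ∑ c, len c := by
    rw [hκ]
    exact Nat.mul_div_le _ _
  have hgd2 : ∀ p, κ ≤ gd p ∧ gd p ≤ κ + 1 := by
    intro p
    constructor
    · by_contra hlt'
      push Not at hlt'
      have h3 : ∑ q, gd q < ∑ _q : Fin b, κ := by
        apply sum_lt_sum
        · intro q _
          have := hgd q p
          omega
        · exact ⟨p, mem_univ _, hlt'⟩
      rw [sum_const, card_univ, Fintype.card_fin, smul_eq_mul] at h3
      omega
    · by_contra hgt
      push Not at hgt
      have h3 : ∑ _q : Fin b, (κ + 1) ≤ ∑ q, gd q := by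
        apply sum_le_sum
        intro q _
        have := hgd p q
        omega
      rw [sum_const, card_univ, Fintype.card_fin, smul_eq_mul] at h3
      omega
  obtain ⟨A, hKA, hAcard, hAdeg⟩ := hF (Fin N) (Fin b) len K gd κ (dD + dU + dG) e' hKlen
    (by simpa using hle) hKd hgd2 hsum (by simpa using hnum)
  have hAD : ∀ d : Fin ND, A ⟨d, by omega⟩ = B d := by
    intro d
    rw [← hKD d]
    symm
    apply eq_of_subset_of_card_le (hKA _)
    rw [hAcard, hKD d, hBc d]
  have hAU : ∀ c : Fin NU, A ⟨ND + c, by omega⟩ = A1 c := by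
    intro c
    rw [← hKU c]
    symm
    apply eq_of_subset_of_card_le (hKA _)
    rw [hAcard, hKU c, hAc c]
  have hAm' : ∀ c : Fin N, ND ≤ (c : ℕ) → miss cl (A c) = ∅ := by
    intro c hc
    have h1 : miss cl (K c) = ∅ := by
      rw [hK]
      simp only
      rw [dif_neg (by omega)]
      split_ifs with hc2
      · exact hAm _
      · exact hGm _
    rw [← subset_empty, ← h1]
    exact miss_anti cl (hKA c)
  refine ⟨A, hAcard, hAdeg, fun c => ?_, fun ρ hρ => ?_⟩
  · by_cases hc : (c : ℕ) < ND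
    · have h1 := hAD ⟨c, hc⟩
      have h2 : (⟨((⟨c, hc⟩ : Fin ND) : ℕ), by omega⟩ : Fin N) = c := rfl
      rw [h2] at h1
      rw [h1]
      exact hBr _
    · intro β
      left
      intro i _
      rw [hAm' c (by omega)]
      exact notMem_empty _
  · obtain hcl | hlt2 := hAcc b (2 * h * r) e C NU ND dD z cl A1 B hR he hC hsz hst hA hBd hBz hz ρ
    · right
      refine ⟨le_of_eq (sum_congr rfl fun c _ => ?_), ?_⟩
      · rw [miss_image cl ρ hcl]
      · obtain ⟨hT1, -, -, -, hT5⟩ := hT
        by_contra hne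
        apply hρ
        apply hT5 ρ hcl
        intro t ht hyy
        apply hne
        obtain ⟨d, hd1, hd2, hd3, hd4⟩ := hBt t ht
        obtain ⟨ht1, ht2, ht3, -, -, -⟩ := hT1 t ht
        refine ⟨⟨d, by omega⟩, ?_⟩
        rw [hAD d]
        refine ⟨ρ t.2.2.1, mem_image_of_mem _ hd1, ρ t.2.2.2, mem_image_of_mem _ hd2,
          fun hh => ht3 (ρ.injective hh), ?_, ?_, ?_⟩
        · rw [hcl, hcl, ht1, ht2]
        · rw [inBlk_image r cl ρ hcl, hcl, ht1]
          exact hd3
        · intro k hk hkr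
          rw [miss_image cl ρ hcl] at hk
          rw [hcl, ht1] at hkr
          rw [hd4 k hk hkr]
          exact hyy
    · left
      have hiD : Function.Injective (fun d : Fin ND => (⟨d, by omega⟩ : Fin N)) := by
        intro x x' hx
        simp only [Fin.mk.injEq] at hx
        exact Fin.ext hx
      have hiU : Function.Injective (fun d : Fin NU => (⟨ND + d, by omega⟩ : Fin N)) := by
        intro x x' hx
        simp only [Fin.mk.injEq] at hx
        exact Fin.ext (by omega)
      have hl : ∑ c, (miss cl (A c)).card = ∑ d, (miss cl (B d)).card := by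
        have h1 : ∑ c ∈ univ.image (fun d : Fin ND => (⟨d, by omega⟩ : Fin N)),
            (miss cl (A c)).card = ∑ c, (miss cl (A c)).card := by
          apply sum_subset (subset_univ _)
          intro c _ hc
          rw [hAm' c, card_empty]
          by_contra hlt3
          apply hc
          rw [mem_image]
          exact ⟨⟨c, by omega⟩, mem_univ _, rfl⟩
        rw [← h1, sum_image (fun x _ x' _ hx => hiD hx)]
        exact sum_congr rfl fun d _ => by rw [hAD d]
      have hr' : ∑ d, (miss cl ((B d).image ρ)).card + ∑ c, (miss cl ((A1 c).image ρ)).card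
          ≤ ∑ c, (miss cl ((A c).image ρ)).card := by
        have h1 : ∑ c ∈ univ.image (fun d : Fin ND => (⟨d, by omega⟩ : Fin N)),
            (miss cl ((A c).image ρ)).card = ∑ d, (miss cl ((B d).image ρ)).card := by
          rw [sum_image (fun x _ x' _ hx => hiD hx)]
          exact sum_congr rfl fun d _ => by rw [hAD d]
        have h2 : ∑ c ∈ univ.image (fun d : Fin NU => (⟨ND + d, by omega⟩ : Fin N)),
            (miss cl ((A c).image ρ)).card = ∑ c, (miss cl ((A1 c).image ρ)).card := by
          rw [sum_image (fun x _ x' _ hx => hiU hx)]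
          exact sum_congr rfl fun d _ => by rw [hAU d]
        rw [← h1, ← h2, ← sum_union]
        · exact sum_le_sum_of_subset (subset_univ _)
        · rw [disjoint_left]
          intro c hc hc2
          rw [mem_image] at hc hc2
          obtain ⟨d, -, rfl⟩ := hc
          obtain ⟨d', -, hd'⟩ := hc2
          simp only [Fin.mk.injEq] at hd'
          have := d.2
          omega
      rw [hl]
      exact lt_of_lt_of_le hlt2 hr'

end Vale.Agent.P181.TS.H798
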