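import Vale.Agent.P181.TS.H798.Core
import Vale.Agent.P181.H59.Fill2

/-!
# P181, TS: the design for columns of polylogarithmic length
-/

set_option autoImplicit false

namespace Vale.Agent.P181.TS.H798

open Finset Vale.Agent.P181 Vale.Agent.P181.H59 Vale.Agent.P181.TS

/-- the parameters -/
theorem num {b m N r R e C dD dU dG : ℕ} {L : ℝ} (hr : 4 ≤ r) (hC : 1 ≤ C)
    (hL : 10 ^ 7 * (C : ℝ) ^ 2 ≤ L ^ 2) (hrL : (r : ℝ) ≤ 3 * L) (hm : 0 < m)
    (hN : ((b : ℝ) / m) * L ^ 4 ≤ N) (hR1 : 32 * R ≤ m) (hR2 : m ≤ 40 * R)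
    (he1 : 1000 * R ≤ e) (he2 : R * e ≤ b) (he3 : b ≤ R * (e + R)) (he : 0 < e)
    (hdD : dD = 600 * (2 * r ^ 2 * (e + R) / e + 1) + 10 * r)
    (hdU : dU = 20000 * C ^ 2 * r ^ 2) (hdG : dG = N / e + 1) :
    2 * (2 * r ^ 2 * (e + R)) + 20000 * C * e * r ^ 2 ≤ N ∧
    4 * (dD + dU + dG) * b + 3 * b ≤ N * m ∧
    2 * C * (2 * r * (e + R)) + 4 * C * e * dD < 20000 * C * e * r ^ 2 := by
  have h1 : 2 * r ^ 2 * (e + R) / e ≤ 4 * r ^ 2 := by
    apply Nat.div_le_of_le_mul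
    calc 2 * r ^ 2 * (e + R) ≤ 2 * r ^ 2 * (2 * e) := Nat.mul_le_mul_left _ (by omega)
      _ = e * (4 * r ^ 2) := by ring
  have hr2 : 16 ≤ r ^ 2 := by nlinarith
  have hr3 : 4 * r ≤ r ^ 2 := by nlinarith
  have hdD2 : dD ≤ 3000 * r ^ 2 := by
    rw [hdD]
    omega
  have hC2 : C ≤ C ^ 2 := by nlinarith
  have hmr : (0 : ℝ) < m := by exact_mod_cast hm
  have hNm : (b : ℝ) * L ^ 4 ≤ N * m := by
    have h2 := mul_le_mul_of_nonneg_right hN hmr.le
    calc (b : ℝ) * L ^ 4 = (b : ℝ) / m * L ^ 4 * m := by field_simp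
      _ ≤ _ := h2
  have hrL2 : (r : ℝ) ^ 2 ≤ 9 * L ^ 2 := by
    have h2 : (0 : ℝ) ≤ r := by positivity
    nlinarith
  have hCr : (1 : ℝ) ≤ C := by exact_mod_cast hC
  have hCC : (C : ℝ) ≤ (C : ℝ) ^ 2 := by nlinarith
  have hL0 : 0 ≤ L ^ 2 := sq_nonneg _
  have hbr : (0 : ℝ) ≤ b := by positivity
  have hem : (e : ℝ) * m ≤ 40 * b := by
    have h2 : e * m ≤ 40 * b := by
      calc e * m ≤ e * (40 * R) := Nat.mul_le_mul_left _ hR2
        _ = 40 * (R * e) := by ring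
        _ ≤ 40 * b := Nat.mul_le_mul_left _ he2
    exact_mod_cast h2
  have hL4 : (10 : ℝ) ^ 7 * (C : ℝ) ^ 2 * L ^ 2 ≤ L ^ 4 := by
    calc (10 : ℝ) ^ 7 * (C : ℝ) ^ 2 * L ^ 2 ≤ L ^ 2 * L ^ 2 :=
          mul_le_mul_of_nonneg_right hL hL0
      _ = _ := by ring
  have hbL : (10 : ℝ) ^ 7 * ((C : ℝ) ^ 2 * L ^ 2 * b) ≤ N * m := by
    have h2 := mul_le_mul_of_nonneg_right hL4 hbr
    linarith
  have hq : (C : ℝ) ^ 2 * r ^ 2 * b ≤ 9 * ((C : ℝ) ^ 2 * L ^ 2 * b) := by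
    have h2 : (0 : ℝ) ≤ (C : ℝ) ^ 2 * b := by positivity
    have h3 := mul_le_mul_of_nonneg_left hrL2 h2
    linarith
  have hq0 : (0 : ℝ) ≤ (C : ℝ) ^ 2 * L ^ 2 * b := by positivity
  refine ⟨?_, ?_, ?_⟩
  · have h2 : 2 * (2 * r ^ 2 * (e + R)) + 20000 * C * e * r ^ 2 ≤ 20008 * (C ^ 2 * r ^ 2 * e) := by
      have e1 : 2 * (2 * r ^ 2 * (e + R)) ≤ 8 * (r ^ 2 * e) := by
        calc 2 * (2 * r ^ 2 * (e + R)) ≤ 2 * (2 * r ^ 2 * (2 * e)) :=
              Nat.mul_le_mul_left _ (Nat.mul_le_mul_left _ (by omega))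
          _ = _ := by ring
      have e2 : r ^ 2 * e ≤ C ^ 2 * (r ^ 2 * e) := Nat.le_mul_of_pos_left _ (by positivity)
      have e3 : C * (r ^ 2 * e) ≤ C ^ 2 * (r ^ 2 * e) := Nat.mul_le_mul_right _ hC2
      have e4 : 20000 * C * e * r ^ 2 = 20000 * (C * (r ^ 2 * e)) := by ring
      have e5 : C ^ 2 * r ^ 2 * e = C ^ 2 * (r ^ 2 * e) := by ring
      rw [e4, e5]
      omega
    refine le_trans h2 ?_
    have h3 : ((20008 * (C ^ 2 * r ^ 2 * e) : ℕ) : ℝ) * m ≤ (N : ℝ) * m := by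
      push_cast
      have h4 : (0 : ℝ) ≤ (C : ℝ) ^ 2 * (r : ℝ) ^ 2 := by positivity
      have h5 := mul_le_mul_of_nonneg_left hem h4
      calc 20008 * ((C : ℝ) ^ 2 * r ^ 2 * e) * m = 20008 * ((C : ℝ) ^ 2 * r ^ 2 * (e * m)) := by
            ring
        _ ≤ 20008 * ((C : ℝ) ^ 2 * r ^ 2 * (40 * b)) := by linarith
        _ = 800320 * ((C : ℝ) ^ 2 * r ^ 2 * b) := by ring
        _ ≤ 800320 * (9 * ((C : ℝ) ^ 2 * L ^ 2 * b)) := by linarith
        _ ≤ (10 : ℝ) ^ 7 * ((C : ℝ) ^ 2 * L ^ 2 * b) := by linarith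
        _ ≤ _ := hbL
    have h4 := le_of_mul_le_mul_right h3 hmr
    exact_mod_cast h4
  · have h2 : 4 * ((N / e : ℕ) : ℝ) * b ≤ N * m / 4 := by
      have e1 : ((N / e : ℕ) : ℝ) * e ≤ N := by exact_mod_cast Nat.div_mul_le_self N e
      have e2 : 1000 * (b : ℝ) ≤ 1001 * (R * e) := by
        have : 1000 * b ≤ 1001 * (R * e) := by
          calc 1000 * b ≤ 1000 * (R * (e + R)) := Nat.mul_le_mul_left _ he3
            _ = R * (1000 * e + 1000 * R) := by ring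
            _ ≤ R * (1000 * e + e) := Nat.mul_le_mul_left _ (by omega)
            _ = _ := by ring
        exact_mod_cast this
      have e3 : 32 * (R : ℝ) ≤ m := by exact_mod_cast hR1
      have e4 : 1000 * (((N / e : ℕ) : ℝ) * b) ≤ 1001 * (R * N) := by
        calc 1000 * (((N / e : ℕ) : ℝ) * b) = ((N / e : ℕ) : ℝ) * (1000 * b) := by ring
          _ ≤ ((N / e : ℕ) : ℝ) * (1001 * (R * e)) :=
              mul_le_mul_of_nonneg_left e2 (by positivity)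
          _ = 1001 * R * (((N / e : ℕ) : ℝ) * e) := by ring
          _ ≤ 1001 * R * N := mul_le_mul_of_nonneg_left e1 (by positivity)
          _ = _ := by ring
      have e5 : 32 * ((R : ℝ) * N) ≤ N * m := by
        have := mul_le_mul_of_nonneg_left e3 (by positivity : (0 : ℝ) ≤ N)
        linarith
      have e6 : (0 : ℝ) ≤ N * m := by positivity
      linarith
    have h3 : (4 * ((dD : ℝ) + dU + 1) + 3) * b ≤ 100000 * ((C : ℝ) ^ 2 * r ^ 2 * b) := by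
      have e1 : 4 * (dD + dU + 1) + 3 ≤ 100000 * (C ^ 2 * r ^ 2) := by
        have f1 : r ^ 2 ≤ C ^ 2 * r ^ 2 := Nat.le_mul_of_pos_left _ (by positivity)
        have f2 : dU = 20000 * (C ^ 2 * r ^ 2) := by rw [hdU]; ring
        omega
      have e2 : (4 * ((dD : ℝ) + dU + 1) + 3) ≤ 100000 * ((C : ℝ) ^ 2 * r ^ 2) := by
        exact_mod_cast e1
      have e3 := mul_le_mul_of_nonneg_right e2 hbr
      linarith
    have h4 : (4 * ((dD : ℝ) + dU + dG) * b + 3 * b) ≤ N * m := by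
      rw [hdG]
      push_cast
      have e6 : (0 : ℝ) ≤ N * m := by positivity
      linarith
    exact_mod_cast h4
  · have hpos : 0 < C * e * r ^ 2 := by positivity
    have e1 : 2 * C * (2 * r * (e + R)) ≤ 2 * (C * e * r ^ 2) := by
      calc 2 * C * (2 * r * (e + R)) ≤ 2 * C * (2 * r * (2 * e)) :=
            Nat.mul_le_mul_left _ (Nat.mul_le_mul_left _ (by omega))
        _ = 2 * C * e * (4 * r) := by ring
        _ ≤ 2 * C * e * r ^ 2 := Nat.mul_le_mul_left _ hr3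
        _ = _ := by ring
    have e2 : 4 * C * e * dD ≤ 12000 * (C * e * r ^ 2) := by
      calc 4 * C * e * dD ≤ 4 * C * e * (3000 * r ^ 2) := Nat.mul_le_mul_left _ hdD2
        _ = _ := by ring
    have e3 : 20000 * C * e * r ^ 2 = 20000 * (C * e * r ^ 2) := by ring
    rw [e3]
    omega

theorem desStep : DesStep := by
  intro hSz hSys hDCol hU hAcc hFree hFill
  obtain ⟨C, hC, hU⟩ := hU
  have hU' : ∀ (b h e NU R : ℕ) (cl : Fin b → Fin R), R = 2 * h → 0 < h →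
      1000 * R ≤ e → 10 ^ 6 ≤ e →
      (∀ i, e ≤ (cls cl i).card ∧ (cls cl i).card ≤ e + R) →
      (C : ℝ) * e * Real.log (b + 1) ≤ NU →
      ∀ len : Fin NU → ℕ, (∀ c, R ≤ len c ∧ len c ≤ 128 * R) →
      ∃ A : Fin NU → Finset (Fin b), (∀ c, (A c).card = len c) ∧ (∀ c, miss cl (A c) = ∅) ∧
        (∀ p, e * dgr A p ≤ C * NU) ∧
        ∀ (T : Finset (Fin b)) (i : Fin R), T.card ≤ e + R →
          (∀ j, (T ∩ cls cl j).card ≤ (T ∩ cls cl i).card) →
          (T \ cls cl i).card ≤ 2 * (cls cl i \ T).card →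
          NU * (cls cl i \ T).card ≤ C * e * (univ.filter fun c => Disjoint (A c) T).card := by
    intro b h e NU R cl hR
    subst hR
    exact hU b h e NU cl
  have hlim : Filter.Tendsto (fun x : ℕ => Real.log (x : ℝ) ^ 2) Filter.atTop Filter.atTop := by
    exact (Filter.tendsto_pow_atTop two_ne_zero).comp
      (Real.tendsto_log_atTop.comp tendsto_natCast_atTop_atTop)
  obtain ⟨b1, hb1⟩ := Filter.eventually_atTop.1
    (hlim.eventually_ge_atTop (10 ^ 7 * (C : ℝ) ^ 2))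
  refine ⟨max b1 (2 * 10 ^ 9), fun b m N hb hm hmb hN len hlen => ?_⟩
  have hL := hb1 b (le_trans (le_max_left _ _) hb)
  have hbig : 2 * 10 ^ 9 ≤ b := le_trans (le_max_right _ _) hb
  clear hb hb1 hlim
  obtain ⟨r, hr⟩ : ∃ r : ℕ, r = Nat.log 2 b + 4 := ⟨_, rfl⟩
  obtain ⟨h, hh⟩ : ∃ h : ℕ, h = m / (64 * r) := ⟨_, rfl⟩
  rw [← hr] at hm
  have hr4 : 4 ≤ r := by omega
  have hm0 : 0 < m := by omega
  have hh4 : 4 ≤ h := by
    rw [hh, Nat.le_div_iff_mul_le (by omega)]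
    omega
  have hhm : 64 * r * h ≤ m := by
    rw [hh]
    exact Nat.mul_div_le _ _
  have hhm2 : m < 64 * r * (h + 1) := by
    rw [hh]
    exact Nat.lt_mul_div_succ _ (by omega)
  obtain ⟨R, hR⟩ : ∃ R : ℕ, R = 2 * h * r := ⟨_, rfl⟩
  have hRm1 : 32 * R ≤ m := by
    calc 32 * R = 64 * r * h := by rw [hR]; ring
      _ ≤ m := hhm
  have hRm2 : m ≤ 40 * R := by
    have e1 : 64 * r * (h + 1) ≤ 40 * R := by
      have e2 : 4 * r ≤ h * r := Nat.mul_le_mul_right _ hh4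
      calc 64 * r * (h + 1) = 64 * (h * r) + 16 * (4 * r) := by ring
        _ ≤ 64 * (h * r) + 16 * (h * r) := by omega
        _ = 40 * R := by rw [hR]; ring
    omega
  have hR0 : 0 < R := by omega
  have hRsq : 2000 * R ^ 2 ≤ b := by
    have e1 : (32 * R) ^ 2 ≤ m ^ 2 := Nat.pow_le_pow_left hRm1 2
    have e2 : m ^ 2 * 2 ≤ m ^ 3 := by
      rw [pow_succ m 2]
      exact Nat.mul_le_mul_left _ (by omega)
    have e3 : (32 * R) ^ 2 = 1024 * R ^ 2 := by ring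
    omega
  obtain ⟨cl, e, he1, he2, he3, hsz, hst⟩ := hSz b R hR0 hRsq
  have he6 : 10 ^ 6 ≤ e := by
    by_contra hc
    push Not at hc
    have e1 : b ≤ R * (2 * e) := le_trans he3 (Nat.mul_le_mul_left _ (by omega))
    have e2 : 1000 * b ≤ e * (2 * e) := by
      calc 1000 * b ≤ 1000 * (R * (2 * e)) := Nat.mul_le_mul_left _ e1
        _ = (1000 * R) * (2 * e) := by ring
        _ ≤ e * (2 * e) := Nat.mul_le_mul_right _ he1
    nlinarith
  have he0 : 0 < e := by omega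
  subst hR
  obtain ⟨y, T, hT⟩ := hSys b r (2 * h) e cl (by omega) (by omega) hsz
  obtain ⟨dD, hdD⟩ : ∃ dD : ℕ, dD = 600 * (2 * r ^ 2 * (e + 2 * h * r) / e + 1) + 10 * r :=
    ⟨_, rfl⟩
  obtain ⟨dU, hdU⟩ : ∃ dU : ℕ, dU = 20000 * C ^ 2 * r ^ 2 := ⟨_, rfl⟩
  obtain ⟨dG, hdG⟩ : ∃ dG : ℕ, dG = N / e + 1 := ⟨_, rfl⟩
  obtain ⟨NU, hNU⟩ : ∃ NU : ℕ, NU = 20000 * C * e * r ^ 2 := ⟨_, rfl⟩
  obtain ⟨τ, hτ⟩ : ∃ τ : ℕ, τ = 2 * r ^ 2 * (e + 2 * h * r) := ⟨_, rfl⟩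
  have hb1 : (1 : ℝ) ≤ b := by exact_mod_cast (by omega : 1 ≤ b)
  have hb0 : (0 : ℝ) < b := by linarith
  have hlogb : 0 ≤ Real.log b := Real.log_nonneg hb1
  have hCr : (1 : ℝ) ≤ C := by exact_mod_cast hC
  have hL4 : 4 ≤ Real.log b := by
    have e1 : (1 : ℝ) ≤ (C : ℝ) ^ 2 := one_le_pow₀ hCr
    nlinarith
  have hl2 := Real.log_two_gt_d9
  have hl2' := Real.log_two_lt_d9
  have hrL : (r : ℝ) ≤ 3 * Real.log b := by
    have e1 : ((2 : ℝ) ^ (Nat.log 2 b)) ≤ b := by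
      exact_mod_cast Nat.pow_log_le_self 2 (by omega)
    have e2 : Real.log ((2 : ℝ) ^ (Nat.log 2 b)) ≤ Real.log b :=
      Real.log_le_log (by positivity) e1
    rw [Real.log_pow] at e2
    have e3 : (r : ℝ) = (Nat.log 2 b : ℝ) + 4 := by rw [hr]; push_cast; ring
    have e4 : (Nat.log 2 b : ℝ) * (2 / 3) ≤ (Nat.log 2 b : ℝ) * Real.log 2 :=
      mul_le_mul_of_nonneg_left (by linarith) (by positivity)
    linarith
  obtain ⟨n1, n2, n3⟩ := num (b := b) (m := m) (N := N) (r := r) (R := 2 * h * r) (e := e)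
    (C := C) hr4 hC hL hrL hm0 hN hRm1 hRm2 he1 he2 he3 he0 hdD hdU hdG
  rw [← hτ, ← hNU] at n1
  rw [← hNU] at n3
  rw [← hτ] at hT hdD
  have hlogU : (C : ℝ) * e * Real.log (b + 1) ≤ NU := by
    have e1 : ((b : ℝ) + 1) ≤ 2 ^ r := by
      have : b + 1 ≤ 2 ^ r := by
        have f1 : b < 2 ^ (Nat.log 2 b + 1) := Nat.lt_pow_succ_log_self (by norm_num) b
        have f2 : 2 ^ (Nat.log 2 b + 1) ≤ 2 ^ r := Nat.pow_le_pow_right (by norm_num) (by omega)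
        omega
      exact_mod_cast this
    have e2 : Real.log (b + 1) ≤ r := by
      calc Real.log (b + 1) ≤ Real.log ((2 : ℝ) ^ r) := Real.log_le_log (by positivity) e1
        _ = r * Real.log 2 := Real.log_pow _ _
        _ ≤ r * 1 := mul_le_mul_of_nonneg_left (by linarith) (by positivity)
        _ = r := mul_one _
    have e3 : (r : ℝ) ≤ 20000 * (r : ℝ) ^ 2 := by
      have : (4 : ℝ) ≤ r := by exact_mod_cast hr4
      nlinarith
    calc (C : ℝ) * e * Real.log (b + 1) ≤ C * e * (20000 * (r : ℝ) ^ 2) :=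
          mul_le_mul_of_nonneg_left (le_trans e2 e3) (by positivity)
      _ = NU := by rw [hNU]; push_cast; ring
  have hlenR : ∀ c, 2 * h * r ≤ len c ∧ len c ≤ 128 * (2 * h * r) := by
    intro c
    have := hlen c
    omega
  obtain ⟨B, hBc, hBr, hBt, hBd, hBz⟩ := hDCol b r h e τ (2 * r * (e + 2 * h * r)) cl y T
    (by omega) (by omega) he1 hsz hT (fun d => len ⟨d, by omega⟩) (fun d => hlenR _)
  rw [← hdD] at hBd
  obtain ⟨A1, hAc, hAm, hAd, hA⟩ := hU' b (h * r) e NU (2 * h * r) cl (by ring)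
    (Nat.mul_pos (by omega) (by omega)) he1 he6 hsz hlogU
    (fun c => len ⟨2 * τ + c, by omega⟩) (fun c => hlenR _)
  obtain ⟨G, hGc, hGm, hGd⟩ := hFree b (2 * h * r) e N cl he0 (fun i => (hsz i).1)
  rw [← hdG] at hGd
  have hAd' : ∀ p, dgr A1 p ≤ dU := by
    intro p
    have e1 : e * dgr A1 p ≤ e * dU := by
      calc e * dgr A1 p ≤ C * NU := hAd p
        _ = e * dU := by rw [hNU, hdU]; ring
    exact Nat.le_of_mul_le_mul_left e1 he0
  have hmb8 : 8 * m ≤ b := by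
    have e1 : m ^ 2 * m ≤ b := by
      rw [← pow_succ]
      exact hmb
    have e2 : 8 ≤ m ^ 2 := by nlinarith
    have e3 : 8 * m ≤ m ^ 2 * m := Nat.mul_le_mul_right _ e2
    omega
  refine core hFill hAcc (e' := b / 2) cl y T hT (by omega) (by omega) hR0 he1 hC hsz hst n1 len
    B hBc hBr hBt hBd hBz A1 hAc hAm hAd' hA n3 G hGc hGm hGd (fun c => (hlenR c).1)
    (fun c => by have := hlen c; omega) ?_
  have hκ : 4 * (dD + dU + dG) + 3 ≤ (∑ c, len c) / b := by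
    rw [Nat.le_div_iff_mul_le (by omega)]
    have h1 : N * m ≤ ∑ c, len c := by
      calc N * m = ∑ _c : Fin N, m := by simp
        _ ≤ _ := sum_le_sum fun c _ => (hlen c).1
    calc (4 * (dD + dU + dG) + 3) * b = 4 * (dD + dU + dG) * b + 3 * b := by ring
      _ ≤ N * m := n2
      _ ≤ _ := h1
  generalize dD + dU + dG = p at hκ ⊢
  have he : 1 ≤ b / 2 := by omega
  have hb3e : b ≤ 3 * (b / 2) := by omega
  calc b * (p + 1) + b / 2 * p ≤ 3 * (b / 2) * (p + 1) + b / 2 * p :=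
        Nat.add_le_add_right (Nat.mul_le_mul_right _ hb3e) _
    _ = (b / 2) * (4 * p + 3) := by ring
    _ < (b / 2) * (4 * p + 4) := Nat.mul_lt_mul_of_pos_left (by omega) (by omega)
    _ ≤ _ := Nat.mul_le_mul_left _ (by omega)

/-- `DesShort` from the open blocks. -/
theorem desShort (hSz : SzStmt) (hSys : SysStmt) (hD : DColStmt) (hU : UStmt) (hAcc : AccStmt)
    (hFree : FreeStmt) : DesShort :=
  desStep hSz hSys hD hU hAcc hFree fill

end Vale.Agent.P181.TS.H798
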